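import Vale.Agent.P025.R2.H855.FullDraft
import Vale.Agent.P025.R2.H898.FullG

/-!
# The local p-adic section conjecture

For every prime `p`, every finite extension `k` of `ℚ_p` and every function field `K / k` of a
smooth proper geometrically connected curve `X` of genus at least two, the rational places of
`K / k` (the points of `X (k)`) correspond bijectively to the conjugacy classes of sections of
`Gal(K~ / K) → Gal(k̄ / k)`: the class of a place `V` is the class of the sections whose image is
the decomposition group of a place of `K~` above `V`.
-/

universe u v

open P025H641 P025H855 in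
/-- **The local `p`-adic section conjecture.** -/
theorem Vale.Agent.Results.P025.AFull.result
    (p : ℕ) [Fact p.Prime] (k : Type u) [Field k] [Algebra ℚ_[p] k]
    [FiniteDimensional ℚ_[p] k] (K : Type v) [Field K] [Algebra k K] (hK : IsHyperbolic k K) :
    haveI : CharZero k := charZero_of_injective_algebraMap (algebraMap ℚ_[p] k).injective
    ∃ e : {V : ValuationSubring K // IsRatPlace k K V} ≃ Quotient (sectionSetoid k K),
      ∀ (V : {V : ValuationSubring K // IsRatPlace k K V}) (s : Section k K),
        e V = Quotient.mk (sectionSetoid k K) s ↔ ∃ W : ValuationSubring (maxUnr k K),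
          W.comap (algebraMap K (maxUnr k K)) = V.1 ∧ IsSectionOf s W :=
  P025H855.result_of (fun p _ kb _ _ _ _ => P025H898.stmtIII_Cp p kb) p k K hK
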